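import Claimed.Agent.R213.Core

/-!
# Row 213 (S0438): from the global geodesic flow to the geometric fields of `SoftCore`

`GeoData Φ r₀` is an explicit hypothesis structure (the target of LEVEL B of the GEOMETRY layer):
a global geodesic flow `Φ` on the tangent bundle together with three local facts valid below the
uniform radius `r₀`.  From it we deduce, by soft arguments, the fields
`exp_zero dist_exp_le ray cont_exp vel nocross hopf_rinow` of `SoftCore`.
-/

set_option autoImplicit false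
set_option linter.unusedSectionVars false
open Claims Claims.C0370 Claims.C0370.WeakMTWGlobalSupport
open scoped Manifold ContDiff Topology
open Set Filter Manifold Bundle

namespace Claimed.Agent.R213.GS

noncomputable section

variable {n : ℕ} {M : Type*} [MetricSpace M] [ChartedSpace (WeakMTW.Model n) M]
  [IsManifold (WeakMTW.model n) ∞ M]
  [RiemannianBundle (fun x : M => TangentSpace (WeakMTW.model n) x)]

/-- fibrewise dilation of the tangent bundle. -/
def sc (a : ℝ) (p : TangentBundle (WeakMTW.model n) M) : TangentBundle (WeakMTW.model n) M :=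
  ⟨p.1, a • p.2⟩

@[simp] theorem sc_fst (a : ℝ) (p : TangentBundle (WeakMTW.model n) M) : (sc a p).1 = p.1 := rfl

@[simp] theorem sc_snd (a : ℝ) (p : TangentBundle (WeakMTW.model n) M) :
    (sc a p).2 = a • p.2 := rfl

theorem sc_mk (a : ℝ) (x : M) (v : TangentSpace (WeakMTW.model n) x) :
    sc a (mk x v) = mk x (a • v) := rfl

theorem sc_sc (a b : ℝ) (p : TangentBundle (WeakMTW.model n) M) :
    sc a (sc b p) = sc (a * b) p := by
  obtain ⟨x, v⟩ := p
  show mk x (a • b • v) = mk x ((a * b) • v)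
  rw [smul_smul]

theorem sc_one (p : TangentBundle (WeakMTW.model n) M) : sc 1 p = p := by
  obtain ⟨x, v⟩ := p
  show mk x ((1 : ℝ) • v) = mk x v
  rw [one_smul]

theorem sc_cancel {a : ℝ} (ha : a ≠ 0) {p q : TangentBundle (WeakMTW.model n) M}
    (h : sc a p = sc a q) : p = q := by
  have := congrArg (sc a⁻¹) h
  rwa [sc_sc, sc_sc, inv_mul_cancel₀ ha, sc_one, sc_one] at this

theorem norm_sc (a : ℝ) (p : TangentBundle (WeakMTW.model n) M) :
    ‖(sc a p).2‖ = |a| * ‖p.2‖ := by
  obtain ⟨x, v⟩ := p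
  show ‖a • v‖ = |a| * ‖v‖
  rw [norm_smul, Real.norm_eq_abs]

/-- a point of `TM` rebuilt over an equal base point. -/
theorem mk_cast {p : TangentBundle (WeakMTW.model n) M} {y : M} (h : p.1 = y) :
    mk y (h ▸ p.2) = p := by
  subst h
  rfl

theorem mk_eq_of_eq {x : M} {v w : TangentSpace (WeakMTW.model n) x} (h : mk x v = mk x w) :
    v = w := by
  have := Bundle.TotalSpace.mk_inj.1 h
  exact this

theorem mk_zero_eq {x y : M} (h : x = y) :
    mk x (0 : TangentSpace (WeakMTW.model n) x) = mk y (0 : TangentSpace (WeakMTW.model n) y) := by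
  subst h
  rfl

/-- **Target of LEVEL B**: a global geodesic flow on `TM` with three local facts.  All fields speak
about `Φ` only. -/
structure GeoCore
    (Φ : ℝ → TangentBundle (WeakMTW.model n) M → TangentBundle (WeakMTW.model n) M) (r₀ : ℝ) :
    Prop where
  r₀_pos : 0 < r₀
  zero : ∀ p, Φ 0 p = p
  add : ∀ s t p, Φ (s + t) p = Φ s (Φ t p)
  cont : Continuous (fun q : ℝ × TangentBundle (WeakMTW.model n) M => Φ q.1 q.2)
  /-- conservation of the speed. -/
  norm : ∀ t p, ‖(Φ t p).2‖ = ‖p.2‖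
  /-- homogeneity (`a = -1`: reversibility). -/
  hom : ∀ (a t : ℝ) p, Φ t (sc a p) = sc a (Φ (a * t) p)
  /-- short geodesics are minimising. -/
  short : ∀ p, ‖p.2‖ < r₀ → dist p.1 (Φ 1 p).1 = ‖p.2‖
  /-- close points are joined by a minimising geodesic. -/
  short_surj : ∀ a b : M, dist a b < r₀ →
    ∃ w : TangentSpace (WeakMTW.model n) a, ‖w‖ = dist a b ∧ (Φ 1 (mk a w)).1 = b
  /-- local no-corner: a minimising broken geodesic with two short legs is not broken. -/
  nocorner : ∀ p q : TangentBundle (WeakMTW.model n) M, p.1 = q.1 → ‖p.2‖ < r₀ → ‖q.2‖ < r₀ →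
    dist (Φ (-1) p).1 (Φ 1 q).1 = ‖p.2‖ + ‖q.2‖ → sc ‖q.2‖ p = sc ‖p.2‖ q

/-- `GeoCore` together with the identification of the exponential map of `Def_0370`
(which follows from `GeoCore` and two differentiability properties, see `GeoSoft/Exp.lean`). -/
structure GeoData
    (Φ : ℝ → TangentBundle (WeakMTW.model n) M → TangentBundle (WeakMTW.model n) M) (r₀ : ℝ) :
    Prop extends GeoCore Φ r₀ where
  /-- the exponential map of `Def_0370` is the time one map of the flow. -/
  exp_eq : ∀ p : TangentBundle (WeakMTW.model n) M, WeakMTW.exp p.1 p.2 = (Φ 1 p).1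

variable {Φ : ℝ → TangentBundle (WeakMTW.model n) M → TangentBundle (WeakMTW.model n) M} {r₀ : ℝ}

namespace GeoCore

theorem neg_flow (h : GeoCore Φ r₀) (t : ℝ) (p : TangentBundle (WeakMTW.model n) M) :
    Φ (-t) (Φ t p) = p := by
  rw [← h.add, neg_add_cancel, h.zero]

theorem flow_inj (h : GeoCore Φ r₀) {t : ℝ} {p q : TangentBundle (WeakMTW.model n) M}
    (hpq : Φ t p = Φ t q) : p = q := by
  rw [← h.neg_flow t p, hpq, h.neg_flow]

/-- base point of the time one map after a dilation. -/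
theorem flow_one_sc_fst (h : GeoCore Φ r₀) (t : ℝ) (p : TangentBundle (WeakMTW.model n) M) :
    (Φ 1 (sc t p)).1 = (Φ t p).1 := by
  rw [h.hom, mul_one, sc_fst]

theorem flow_sc_fst (h : GeoCore Φ r₀) (a t : ℝ) (p : TangentBundle (WeakMTW.model n) M) :
    (Φ t (sc a p)).1 = (Φ (a * t) p).1 := by
  rw [h.hom, sc_fst]

/-- short arcs of flow lines are minimising. -/
theorem dist_flow_short (h : GeoCore Φ r₀) (p : TangentBundle (WeakMTW.model n) M) (τ : ℝ)
    (hτ : |τ| * ‖p.2‖ < r₀) : dist p.1 (Φ τ p).1 = |τ| * ‖p.2‖ := by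
  have := h.short (sc τ p) (by rwa [norm_sc])
  rwa [h.flow_one_sc_fst, norm_sc, sc_fst] at this

/-- flow lines are Lipschitz. -/
theorem dist_flow_le (h : GeoCore Φ r₀) (p : TangentBundle (WeakMTW.model n) M) (s t : ℝ) :
    dist (Φ s p).1 (Φ t p).1 ≤ |t - s| * ‖p.2‖ := by
  obtain ⟨N, hN⟩ := exists_nat_gt (|t - s| * ‖p.2‖ / r₀)
  have hN0 : (0 : ℝ) < N := lt_of_le_of_lt (by have := h.r₀_pos; positivity) hN
  set τ : ℝ := (t - s) / N with hτ
  have hτs : |τ| * ‖p.2‖ < r₀ := by
    rw [hτ, abs_div, abs_of_pos hN0, div_mul_eq_mul_div, div_lt_iff₀ hN0]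
    rw [div_lt_iff₀ h.r₀_pos] at hN
    linarith
  have hstep : ∀ i : ℕ, dist (Φ (s + i * τ) p).1 (Φ (s + (i + 1 : ℕ) * τ) p).1 = |τ| * ‖p.2‖ := by
    intro i
    have h1 := h.dist_flow_short (Φ (s + i * τ) p) τ (by rwa [h.norm])
    rw [← h.add, h.norm] at h1
    have e : τ + (s + i * τ) = s + (i + 1 : ℕ) * τ := by push_cast; ring
    rwa [e] at h1
  have hsum := dist_le_range_sum_dist (fun i : ℕ => (Φ (s + i * τ) p).1) N
  simp only [hstep, Finset.sum_const, Finset.card_range, nsmul_eq_mul] at hsum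
  have e0 : s + ((0 : ℕ) : ℝ) * τ = s := by simp
  have eN : s + (N : ℝ) * τ = t := by
    rw [hτ]; field_simp; ring
  rw [e0, eN] at hsum
  have e2 : (N : ℝ) * (|τ| * ‖p.2‖) = |t - s| * ‖p.2‖ := by
    rw [hτ, abs_div, abs_of_pos hN0]; field_simp
  rwa [e2] at hsum

/-- a minimising flow line is minimising between any two of its points. -/
theorem dist_flow_of_min (h : GeoCore Φ r₀) (p : TangentBundle (WeakMTW.model n) M) {T : ℝ}
    (hmin : dist p.1 (Φ T p).1 = T * ‖p.2‖) {r t : ℝ} (hr : 0 ≤ r) (hrt : r ≤ t)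
    (ht : t ≤ T) : dist (Φ r p).1 (Φ t p).1 = (t - r) * ‖p.2‖ := by
  have h1 := h.dist_flow_le p 0 r
  have h2 := h.dist_flow_le p r t
  have h3 := h.dist_flow_le p t T
  rw [h.zero, sub_zero, abs_of_nonneg hr] at h1
  rw [abs_of_nonneg (by linarith)] at h2 h3
  have h4 := dist_triangle4 p.1 (Φ r p).1 (Φ t p).1 (Φ T p).1
  apply le_antisymm h2
  nlinarith

/-- flow lines of zero vectors are constant. -/
theorem flow_fst_of_norm_eq_zero (h : GeoCore Φ r₀) {p : TangentBundle (WeakMTW.model n) M}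
    (hp : ‖p.2‖ = 0) (t : ℝ) : (Φ t p).1 = p.1 := by
  have := h.dist_flow_le p 0 t
  rw [h.zero, hp, mul_zero] at this
  exact (dist_le_zero.1 this).symm

end GeoCore

namespace GeoData

theorem exp_smul (h : GeoData Φ r₀) (x : M) (v : TangentSpace (WeakMTW.model n) x) (t : ℝ) :
    WeakMTW.exp x (t • v) = (Φ t (R213.mk x v)).1 := by
  have := h.exp_eq (sc t (R213.mk x v))
  rw [h.flow_one_sc_fst] at this
  exact this

theorem exp_eq' (h : GeoData Φ r₀) (x : M) (v : TangentSpace (WeakMTW.model n) x) :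
    WeakMTW.exp x v = (Φ 1 (R213.mk x v)).1 := h.exp_eq (R213.mk x v)

/-- field `exp_zero`. -/
theorem exp_zero (h : GeoData Φ r₀) (x : M) :
    WeakMTW.exp x (0 : TangentSpace (WeakMTW.model n) x) = x := by
  have := h.exp_smul x (0 : TangentSpace (WeakMTW.model n) x) 0
  rw [zero_smul, h.zero] at this
  exact this

/-- field `dist_exp_le`. -/
theorem dist_exp_le (h : GeoData Φ r₀) (x : M) (v : TangentSpace (WeakMTW.model n) x) :
    dist x (WeakMTW.exp x v) ≤ ‖v‖ := by
  have := h.dist_flow_le (R213.mk x v) 0 1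
  rw [h.zero, ← h.exp_eq'] at this
  simpa using this

/-- field `ray`. -/
theorem ray (h : GeoData Φ r₀) (x : M) (v : TangentSpace (WeakMTW.model n) x) (hv : v ∈ Ibar x)
    (r t : ℝ) (hr : 0 ≤ r) (hrt : r ≤ t) (ht : t ≤ 1) :
    dist (WeakMTW.exp x (r • v)) (WeakMTW.exp x (t • v)) = (t - r) * ‖v‖ := by
  rw [h.exp_smul, h.exp_smul]
  refine h.dist_flow_of_min (R213.mk x v) (T := 1) ?_ hr hrt ht
  have hv' : dist x (WeakMTW.exp x v) = ‖v‖ := hv
  rw [one_mul, ← h.exp_eq']
  exact hv'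

/-- field `cont_exp`. -/
theorem cont_exp (h : GeoData Φ r₀) :
    Continuous (fun p : TangentBundle (WeakMTW.model n) M => WeakMTW.exp p.1 p.2) := by
  have h1 : Continuous (fun p : TangentBundle (WeakMTW.model n) M => Φ 1 p) :=
    h.cont.comp (Continuous.prodMk_right (1 : ℝ))
  have h2 : Continuous (fun p : TangentBundle (WeakMTW.model n) M => (Φ 1 p).1) :=
    (FiberBundle.continuous_proj (WeakMTW.Model n) (TangentSpace (WeakMTW.model n))).comp h1
  simpa only [h.exp_eq] using h2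

/-- field `vel`. -/
theorem vel (h : GeoData Φ r₀) (x : M) (e : TangentSpace (WeakMTW.model n) x) :
    ∃ E : ∀ ε : ℝ, TangentSpace (WeakMTW.model n) (WeakMTW.exp x (ε • e)),
      (∀ ε : ℝ, WeakMTW.exp (WeakMTW.exp x (ε • e)) ((-ε) • E ε) = x) ∧
      Tendsto (fun ε : ℝ => R213.mk (WeakMTW.exp x (ε • e)) (E ε)) (𝓝 0) (𝓝 (R213.mk x e)) := by
  have hb : ∀ ε : ℝ, (Φ ε (R213.mk x e)).1 = WeakMTW.exp x (ε • e) :=
    fun ε => (h.exp_smul x e ε).symm
  have hE : ∀ ε : ℝ, R213.mk (WeakMTW.exp x (ε • e)) ((hb ε) ▸ (Φ ε (R213.mk x e)).2) =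
      Φ ε (R213.mk x e) :=
    fun ε => mk_cast (hb ε)
  refine ⟨fun ε => (hb ε) ▸ (Φ ε (R213.mk x e)).2, fun ε => ?_, ?_⟩
  · rw [h.exp_smul, hE, h.neg_flow]
  · simp only [hE]
    have h1 : Continuous (fun ε : ℝ => Φ ε (R213.mk x e)) :=
      h.cont.comp (Continuous.prodMk_left (R213.mk x e))
    have h2 := h1.tendsto 0
    rwa [h.zero] at h2

end GeoData

end

end Claimed.Agent.R213.GS
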