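import Claimed.Agent.R213.GeoSoft.NoCorner

/-!
# Row 213 (S0438): metric geodesics are flow lines (local part)

Consequences of `GeoCore`: injectivity of the exponential map on short vectors, points between the
end points of a short geodesic lie on it, a curve which locally realises the distance is locally
the projection of a flow line.
-/

set_option autoImplicit false
set_option linter.unusedSectionVars false
open Claims Claims.C0370 Claims.C0370.WeakMTWGlobalSupport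
open scoped Manifold ContDiff Topology
open Set Filter Manifold Bundle

namespace Claimed.Agent.R213.GS

noncomputable section

variable {n : ℕ} {M : Type*} [MetricSpace M] [ChartedSpace (WeakMTW.Model n) M]
  [IsManifold (WeakMTW.model n) ∞ M]
  [RiemannianBundle (fun x : M => TangentSpace (WeakMTW.model n) x)]

theorem tm_eq_of_norm_zero {p q : TangentBundle (WeakMTW.model n) M} (hb : p.1 = q.1)
    (hp : ‖p.2‖ = 0) (hq : ‖q.2‖ = 0) : p = q := by
  obtain ⟨x, v⟩ := p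
  obtain ⟨y, w⟩ := q
  have hb' : x = y := hb
  subst hb'
  have hv : v = 0 := norm_eq_zero.1 hp
  have hw : w = 0 := norm_eq_zero.1 hq
  rw [hv, hw]

variable {Φ : ℝ → TangentBundle (WeakMTW.model n) M → TangentBundle (WeakMTW.model n) M} {r₀ : ℝ}

namespace GeoCore

/-- the exponential map is injective on short vectors of equal length. -/
theorem short_inj (h : GeoCore Φ r₀) {p q : TangentBundle (WeakMTW.model n) M} (hb : p.1 = q.1)
    (hp : ‖p.2‖ < r₀) (hn : ‖q.2‖ = ‖p.2‖) (he : (Φ 1 p).1 = (Φ 1 q).1) : p = q := by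
  rcases eq_or_lt_of_le (norm_nonneg p.2) with h0 | hpos
  · exact tm_eq_of_norm_zero hb h0.symm (hn.trans h0.symm)
  set ℓ := ‖p.2‖ with hℓ
  set a : ℝ := (1 + r₀ / ℓ) / 2 with ha
  have hq1 : 1 < r₀ / ℓ := by rwa [one_lt_div hpos]
  have ha1 : 0 < a - 1 := by rw [ha]; linarith
  have ha0 : 0 < a := by linarith
  have haℓ : a * ℓ < r₀ := by
    have : a * ℓ = (ℓ + r₀) / 2 := by rw [ha]; field_simp
    rw [this]; linarith
  have hd := h.dist_flow_short p a (by rw [abs_of_pos ha0]; exact haℓ)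
  rw [abs_of_pos ha0] at hd
  have n2 : ‖(sc (a - 1) (Φ 1 p)).2‖ = (a - 1) * ℓ := by
    rw [norm_sc, abs_of_pos ha1, h.norm]
  have key := h.nocorner_global q (sc (a - 1) (Φ 1 p)) (by rw [sc_fst]; exact he.symm)
    (by
      rw [h.flow_one_sc_fst, ← h.add, sub_add_cancel, n2, hn, ← hb, hd]
      ring)
  rw [n2, hn, sc_sc, mul_comm ℓ] at key
  exact (h.flow_inj (sc_cancel (by positivity) key)).symm

/-- a flow line is determined by its base curve. -/
theorem eq_of_flow_fst_eq (h : GeoCore Φ r₀) {Q Q' : TangentBundle (WeakMTW.model n) M}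
    (hb : Q.1 = Q'.1) (hn : ‖Q'.2‖ = ‖Q.2‖) {σ : ℝ} (hσ : σ ≠ 0) (hs : |σ| * ‖Q.2‖ < r₀)
    (he : (Φ σ Q).1 = (Φ σ Q').1) : Q = Q' := by
  refine sc_cancel hσ (h.short_inj (p := sc σ Q) (q := sc σ Q') hb (by rwa [norm_sc]) ?_ ?_)
  · rw [norm_sc, norm_sc, hn]
  · rw [h.flow_one_sc_fst, h.flow_one_sc_fst]; exact he

/-- a point between the end points of a short geodesic lies on it. -/
theorem eq_flow_of_between (h : GeoCore Φ r₀) (W : TangentBundle (WeakMTW.model n) M)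
    (hW : ‖W.2‖ < r₀) {y : M} {θ : ℝ} (h0 : 0 ≤ θ) (h1 : θ ≤ 1)
    (hy1 : dist W.1 y = θ * ‖W.2‖) (hy2 : dist y (Φ 1 W).1 = (1 - θ) * ‖W.2‖) :
    y = (Φ θ W).1 := by
  rcases eq_or_lt_of_le h0 with rfl | hθ0
  · rw [zero_mul] at hy1
    rw [h.zero]
    exact (dist_eq_zero.1 hy1).symm
  rcases eq_or_lt_of_le h1 with rfl | hθ1
  · rw [sub_self, zero_mul] at hy2
    exact dist_eq_zero.1 hy2
  rcases eq_or_lt_of_le (norm_nonneg W.2) with hd0 | hd
  · rw [← hd0, mul_zero] at hy1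
    rw [h.flow_fst_of_norm_eq_zero hd0.symm]
    exact (dist_eq_zero.1 hy1).symm
  set d := ‖W.2‖ with hdd
  have hθ1' : 0 < 1 - θ := by linarith
  obtain ⟨w₁, hw1, hw1'⟩ := h.short_surj W.1 y (by rw [hy1]; nlinarith)
  obtain ⟨w₂, hw2, hw2'⟩ := h.short_surj y (Φ 1 W).1 (by rw [hy2]; nlinarith)
  rw [hy1] at hw1
  rw [hy2] at hw2
  have key := h.nocorner_global (R213.mk W.1 w₁) (R213.mk y w₂) hw1'
    (by
      rw [hw2']
      have e1 : ‖(R213.mk W.1 w₁).2‖ = θ * d := hw1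
      have e2 : ‖(R213.mk y w₂).2‖ = (1 - θ) * d := hw2
      have e3 : dist (R213.mk W.1 w₁).1 (Φ 1 W).1 = d := h.short W hW
      rw [e1, e2, e3]; ring)
  have e1 : ‖(R213.mk W.1 w₁).2‖ = θ * d := hw1
  have e2 : ‖(R213.mk y w₂).2‖ = (1 - θ) * d := hw2
  rw [e1, e2] at key
  -- the first leg, prolonged, reaches the end point
  have hP : Φ 1 (R213.mk W.1 w₁) = sc (((1 - θ) * d)⁻¹ * (θ * d)) (R213.mk y w₂) := by
    have := congrArg (sc ((1 - θ) * d)⁻¹) key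
    rwa [sc_sc, sc_sc, inv_mul_cancel₀ (by positivity), sc_one] at this
  have hend : (Φ 1 (sc θ⁻¹ (R213.mk W.1 w₁))).1 = (Φ 1 W).1 := by
    have e : θ⁻¹ = (θ⁻¹ - 1) + 1 := by ring
    rw [h.flow_one_sc_fst, e, h.add, hP, h.flow_sc_fst]
    have e' : ((1 - θ) * d)⁻¹ * (θ * d) * (θ⁻¹ - 1) = 1 := by
      field_simp
    rw [e', hw2']
  have hWW : W = sc θ⁻¹ (R213.mk W.1 w₁) := by
    refine h.short_inj rfl hW ?_ hend.symm
    rw [norm_sc, e1, abs_of_pos (inv_pos.2 hθ0)]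
    field_simp
    exact hdd
  rw [hWW, h.flow_sc_fst, inv_mul_cancel₀ hθ0.ne', hw1']

/-- a curve which realises the distance near `t₀` is, near `t₀`, the projection of a flow line. -/
theorem exists_local_flow_line (h : GeoCore Φ r₀) {γ : ℝ → M} {ℓ t₀ ε₀ : ℝ} (hℓ : 0 < ℓ)
    (hε₀ : 0 < ε₀)
    (hloc : ∀ s ∈ Metric.ball t₀ ε₀, ∀ r ∈ Metric.ball t₀ ε₀, dist (γ s) (γ r) = ℓ * |s - r|) :
    ∃ (P : TangentBundle (WeakMTW.model n) M) (ε : ℝ), 0 < ε ∧ ‖P.2‖ = ℓ ∧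
      ∀ τ : ℝ, |τ| < ε → γ (t₀ + τ) = (Φ τ P).1 := by
  have hr := h.r₀_pos
  set ε : ℝ := min (ε₀ / 2) (r₀ / (4 * ℓ)) with hε
  have hε0 : 0 < ε := by rw [hε]; positivity
  have hε1 : ε ≤ ε₀ / 2 := min_le_left _ _
  have hε2 : ε * (4 * ℓ) ≤ r₀ := by
    have : ε ≤ r₀ / (4 * ℓ) := min_le_right _ _
    rwa [le_div_iff₀ (by positivity)] at this
  have hball : ∀ τ : ℝ, |τ| ≤ ε → t₀ + τ ∈ Metric.ball t₀ ε₀ := by
    intro τ hτ
    rw [Metric.mem_ball, Real.dist_eq, add_sub_cancel_left]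
    linarith
  have hεa : |(-ε)| ≤ ε := by rw [abs_neg, abs_of_pos hε0]
  have hεb : |ε| ≤ ε := by rw [abs_of_pos hε0]
  have hab : dist (γ (t₀ + -ε)) (γ (t₀ + ε)) = 2 * ε * ℓ := by
    rw [hloc _ (hball _ hεa) _ (hball _ hεb)]
    have : t₀ + -ε - (t₀ + ε) = -(2 * ε) := by ring
    rw [this, abs_neg, abs_of_pos (by positivity)]
    ring
  obtain ⟨w, hw1, hw2⟩ := h.short_surj (γ (t₀ + -ε)) (γ (t₀ + ε)) (by rw [hab]; nlinarith)
  rw [hab] at hw1
  set W := R213.mk (γ (t₀ + -ε)) w with hW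
  have hWn : ‖W.2‖ = 2 * ε * ℓ := hw1
  refine ⟨Φ ε (sc (2 * ε)⁻¹ W), ε, hε0, ?_, fun τ hτ => ?_⟩
  · rw [h.norm, norm_sc, hWn, abs_of_pos (by positivity)]
    field_simp
  · have hτ' := abs_lt.1 hτ
    rw [← h.add, h.flow_sc_fst]
    refine h.eq_flow_of_between W (by rw [hWn]; nlinarith) ?_ ?_ ?_ ?_
    · have : 0 ≤ τ + ε := by linarith
      positivity
    · rw [inv_mul_le_iff₀ (by positivity)]; linarith
    · have e : dist W.1 (γ (t₀ + τ)) = ℓ * |t₀ + -ε - (t₀ + τ)| :=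
        hloc _ (hball _ hεa) _ (hball _ hτ.le)
      have e2 : t₀ + -ε - (t₀ + τ) = -(τ + ε) := by ring
      rw [e, e2, abs_neg, abs_of_nonneg (by linarith), hWn]
      field_simp
    · have e : dist (γ (t₀ + τ)) (γ (t₀ + ε)) = ℓ * |t₀ + τ - (t₀ + ε)| :=
        hloc _ (hball _ hτ.le) _ (hball _ hεb)
      have e2 : t₀ + τ - (t₀ + ε) = -(ε - τ) := by ring
      rw [hw2, e, e2, abs_neg, abs_of_nonneg (by linarith), hWn]
      field_simp
      ring

end GeoCore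

end

end Claimed.Agent.R213.GS
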