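import Claimed.Agent.R213.GeoSoft.Between

/-!
# Row 213 (S0438): the exponential map of `Def_0370` is the time one map of the geodesic flow

`GeoFull Φ r₀` = `GeoCore Φ r₀` + the base curves of flow lines are smooth and have the right
initial velocity.  We prove that flow lines are `CompleteGeodesicWithInitialData`, that every
`CompleteGeodesicWithInitialData` is the base curve of a flow line, and hence `GeoData Φ r₀`.
-/

set_option autoImplicit false
set_option linter.unusedSectionVars false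
open Claims Claims.C0370 Claims.C0370.WeakMTWGlobalSupport
open scoped Manifold ContDiff Topology
open Set Filter Manifold Bundle

namespace Claimed.Agent.R213.GS

noncomputable section

variable {n : ℕ} {M : Type*} [MetricSpace M] [ChartedSpace (WeakMTW.Model n) M]
  [IsManifold (WeakMTW.model n) ∞ M]
  [RiemannianBundle (fun x : M => TangentSpace (WeakMTW.model n) x)]

/-- the velocity of a curve, as a point of the tangent bundle. -/
def tvel (γ : ℝ → M) (t : ℝ) : TangentBundle (WeakMTW.model n) M :=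
  ⟨γ t, mfderiv 𝓘(ℝ, ℝ) (WeakMTW.model n) γ t (1 : ℝ)⟩

theorem tm_ext_model {y y' : M} (h : y = y') {u : TangentSpace (WeakMTW.model n) y}
    {u' : TangentSpace (WeakMTW.model n) y'}
    (hu : (show WeakMTW.Model n from u) = (show WeakMTW.Model n from u')) : mk y u = mk y' u' := by
  subst h
  exact congrArg (mk y) hu

theorem tvel_congr {γ c : ℝ → M} {t : ℝ} (h : γ =ᶠ[𝓝 t] c) :
    tvel (n := n) γ t = tvel c t := by
  have h1 : γ t = c t := h.eq_of_nhds
  have h2 := h.mfderiv_eq (I := 𝓘(ℝ, ℝ)) (I' := WeakMTW.model n)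
  refine tm_ext_model h1 ?_
  exact DFunLike.congr_fun h2 (1 : ℝ)

theorem mk_eq_of_cast_eq {y x : M} {u : TangentSpace (WeakMTW.model n) y}
    {v : TangentSpace (WeakMTW.model n) x} (h' : y = x) (h : (h' ▸ u) = v) : mk y u = mk x v := by
  subst h'
  subst h
  rfl

theorem cast_eq_of_mk_eq {y x : M} {u : TangentSpace (WeakMTW.model n) y}
    {v : TangentSpace (WeakMTW.model n) x} (h : mk y u = mk x v) (h' : y = x) : (h' ▸ u) = v := by
  subst h'
  exact mk_eq_of_eq h

/-- `GeoCore` + differentiability of the base curves of the flow lines. -/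
structure GeoFull
    (Φ : ℝ → TangentBundle (WeakMTW.model n) M → TangentBundle (WeakMTW.model n) M) (r₀ : ℝ) :
    Prop extends GeoCore Φ r₀ where
  curve_smooth : ∀ p, ContMDiff 𝓘(ℝ, ℝ) (WeakMTW.model n) ∞ (fun t => (Φ t p).1)
  /-- the initial velocity of the base curve of the flow line of `p` is `p`. -/
  vel0 : ∀ p, tvel (fun t => (Φ t p).1) 0 = p

variable {Φ : ℝ → TangentBundle (WeakMTW.model n) M → TangentBundle (WeakMTW.model n) M} {r₀ : ℝ}

namespace GeoFull

/-- **(A)** base curves of flow lines are complete geodesics in the sense of `Def_0370`. -/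
theorem completeGeodesic (h : GeoFull Φ r₀) (x : M) (v : TangentSpace (WeakMTW.model n) x) :
    WeakMTW.CompleteGeodesicWithInitialData x v (fun t => (Φ t (R213.mk x v)).1) := by
  have h0 : (fun t => (Φ t (R213.mk x v)).1) 0 = x := by
    show (Φ 0 (R213.mk x v)).1 = x
    rw [h.zero]
  refine ⟨h.curve_smooth _, h0, cast_eq_of_mk_eq (h.vel0 (R213.mk x v)) h0, fun t => ?_⟩
  have hr := h.r₀_pos
  refine ⟨r₀ / (2 * (‖v‖ + 1)), by positivity, fun s hs r hr' => ?_⟩
  rw [Metric.mem_ball, Real.dist_eq] at hs hr'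
  have hsr : |r - s| < r₀ / (‖v‖ + 1) := by
    have h1 : |r - s| ≤ |r - t| + |s - t| := by
      have := abs_sub_le r t s
      rwa [abs_sub_comm t s] at this
    have h2 : r₀ / (‖v‖ + 1) = r₀ / (2 * (‖v‖ + 1)) + r₀ / (2 * (‖v‖ + 1)) := by
      field_simp; ring
    linarith
  have hn : ‖(Φ s (R213.mk x v)).2‖ = ‖v‖ := h.norm s _
  have hsmall : |r - s| * ‖(Φ s (R213.mk x v)).2‖ < r₀ := by
    rw [hn]
    rw [lt_div_iff₀ (by positivity)] at hsr
    nlinarith [abs_nonneg (r - s), norm_nonneg v]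
  have := h.dist_flow_short (Φ s (R213.mk x v)) (r - s) hsmall
  rw [← h.add, sub_add_cancel, hn] at this
  show dist (Φ s (R213.mk x v)).1 (Φ r (R213.mk x v)).1 = ‖v‖ * |s - r|
  rw [this, abs_sub_comm, mul_comm]

/-- a curve with initial velocity `p₀ ≠ 0` which locally realises the distance is the base curve
of the flow line of `p₀`. -/
theorem eq_flow_of_metric (h : GeoFull Φ r₀) {γ : ℝ → M} {p₀ : TangentBundle (WeakMTW.model n) M}
    (hℓ : 0 < ‖p₀.2‖) (hv : tvel γ 0 = p₀)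
    (hloc : ∀ t : ℝ, ∃ ε : ℝ, 0 < ε ∧ ∀ s ∈ Metric.ball t ε, ∀ r ∈ Metric.ball t ε,
      dist (γ s) (γ r) = ‖p₀.2‖ * |s - r|) (t : ℝ) : γ t = (Φ t p₀).1 := by
  set ℓ := ‖p₀.2‖ with hℓd
  have hr := h.r₀_pos
  let A : Set ℝ := {t | ∃ ε : ℝ, 0 < ε ∧ ∀ τ : ℝ, |τ| < ε → γ (t + τ) = (Φ (t + τ) p₀).1}
  have hstep : ∀ t₀ : ℝ, ∃ (P : TangentBundle (WeakMTW.model n) M) (ε : ℝ), 0 < ε ∧ ‖P.2‖ = ℓ ∧
      ∀ τ : ℝ, |τ| < ε → γ (t₀ + τ) = (Φ τ P).1 := by
    intro t₀
    obtain ⟨ε₀, hε₀, hl⟩ := hloc t₀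
    exact h.exists_local_flow_line hℓ hε₀ hl
  have hopen : IsOpen A := by
    rw [Metric.isOpen_iff]
    rintro t₁ ⟨ε, hε, hA⟩
    refine ⟨ε / 2, by positivity, fun t' ht' => ⟨ε / 2, by positivity, fun τ hτ => ?_⟩⟩
    rw [Metric.mem_ball, Real.dist_eq] at ht'
    have e : t' + τ = t₁ + (t' - t₁ + τ) := by ring
    rw [e]
    apply hA
    have := abs_add_le (t' - t₁) τ
    linarith
  have h0 : (0 : ℝ) ∈ A := by
    obtain ⟨P, ε, hε, -, hP⟩ := hstep 0
    have hev : γ =ᶠ[𝓝 0] fun τ => (Φ τ P).1 := by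
      have : Metric.ball (0 : ℝ) ε ∈ 𝓝 (0 : ℝ) := Metric.ball_mem_nhds _ hε
      filter_upwards [this] with τ hτ
      rw [Metric.mem_ball, Real.dist_eq, sub_zero] at hτ
      have := hP τ hτ
      rwa [zero_add] at this
    have hPp : P = p₀ := by rw [← hv, tvel_congr hev, h.vel0]
    refine ⟨ε, hε, fun τ hτ => ?_⟩
    rw [hP τ hτ, hPp, zero_add]
  have hclosed : IsClosed A := by
    rw [← closure_subset_iff_isClosed]
    intro t₁ ht₁
    obtain ⟨P, ε₁, hε₁, hPn, hP⟩ := hstep t₁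
    obtain ⟨t', ⟨ε', hε', hA⟩, htt⟩ := Metric.mem_closure_iff.1 ht₁ (ε₁ / 2) (by positivity)
    rw [Real.dist_eq] at htt
    -- two flow lines with the same base curve near `t'`
    have hsame : ∀ σ : ℝ, |σ| < min ε' (ε₁ / 2) →
        (Φ σ (Φ (t' - t₁) P)).1 = (Φ σ (Φ t' p₀)).1 := by
      intro σ hσ
      have h1 : |σ| < ε' := lt_of_lt_of_le hσ (min_le_left _ _)
      have h2 : |σ| < ε₁ / 2 := lt_of_lt_of_le hσ (min_le_right _ _)
      have h3 : |σ + (t' - t₁)| < ε₁ := by
        have := abs_add_le σ (t' - t₁)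
        rw [abs_sub_comm t' t₁] at this
        linarith
      rw [← h.add, ← h.add, ← hP _ h3, add_comm σ t', ← hA σ h1]
      congr 1
      ring
    set σ : ℝ := min (min ε' (ε₁ / 2)) (r₀ / ℓ) / 2 with hσ
    have hm : 0 < min (min ε' (ε₁ / 2)) (r₀ / ℓ) := by positivity
    have hσ0 : 0 < σ := by rw [hσ]; positivity
    have hσ1 : |σ| < min ε' (ε₁ / 2) := by
      rw [abs_of_pos hσ0, hσ]
      have := min_le_left (min ε' (ε₁ / 2)) (r₀ / ℓ)
      linarith
    have hσ2 : |σ| * ℓ < r₀ := by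
      rw [abs_of_pos hσ0, hσ]
      have h1 := min_le_right (min ε' (ε₁ / 2)) (r₀ / ℓ)
      have h2 : min (min ε' (ε₁ / 2)) (r₀ / ℓ) / 2 < r₀ / ℓ := by linarith
      rwa [lt_div_iff₀ hℓ] at h2
    have hQ : Φ (t' - t₁) P = Φ t' p₀ := by
      refine h.eq_of_flow_fst_eq ?_ ?_ hσ0.ne' ?_ (hsame σ hσ1)
      · have := hsame 0 (by rw [abs_zero]; positivity)
        rwa [h.zero, h.zero] at this
      · rw [h.norm, h.norm, hPn]
      · rw [h.norm, hPn]; exact hσ2
    have hPeq : P = Φ t₁ p₀ := by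
      have := congrArg (Φ (t₁ - t')) hQ
      rw [← h.add, ← h.add] at this
      have e1 : t₁ - t' + (t' - t₁) = 0 := by ring
      have e2 : t₁ - t' + t' = t₁ := by ring
      rwa [e1, e2, h.zero] at this
    refine ⟨ε₁, hε₁, fun τ hτ => ?_⟩
    rw [hP τ hτ, hPeq, ← h.add, add_comm]
  have huniv : A = univ := IsClopen.eq_univ ⟨hclosed, hopen⟩ ⟨0, h0⟩
  have ht : t ∈ A := by rw [huniv]; exact mem_univ t
  obtain ⟨ε, hε, hA⟩ := ht
  have := hA 0 (by rw [abs_zero]; exact hε)
  rwa [add_zero] at this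

/-- **(B)** every complete geodesic in the sense of `Def_0370` is the base curve of a flow line. -/
theorem eq_flow_of_completeGeodesic (h : GeoFull Φ r₀) {x : M}
    {v : TangentSpace (WeakMTW.model n) x} {γ : ℝ → M}
    (hγ : WeakMTW.CompleteGeodesicWithInitialData x v γ) (t : ℝ) :
    γ t = (Φ t (R213.mk x v)).1 := by
  obtain ⟨-, h0, hv, hloc⟩ := hγ
  rcases eq_or_lt_of_le (norm_nonneg v) with hz | hpos
  · -- constant curve
    have hlc : IsLocallyConstant γ := by
      rw [IsLocallyConstant.iff_eventually_eq]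
      intro t₁
      obtain ⟨ε, hε, hl⟩ := hloc t₁
      filter_upwards [Metric.ball_mem_nhds t₁ hε] with s hs
      have := hl s hs t₁ (Metric.mem_ball_self hε)
      rw [← hz, zero_mul] at this
      exact dist_eq_zero.1 this
    have h1 : γ t = γ 0 := hlc.apply_eq_of_preconnectedSpace t 0
    have h2 : (Φ t (R213.mk x v)).1 = x :=
      h.flow_fst_of_norm_eq_zero (p := R213.mk x v) hz.symm t
    rw [h1, h0, h2]
  · exact h.eq_flow_of_metric (p₀ := R213.mk x v) hpos (mk_eq_of_cast_eq h0 hv) hloc t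

/-- the exponential map of `Def_0370` is the time one map of the flow. -/
theorem exp_eq (h : GeoFull Φ r₀) (p : TangentBundle (WeakMTW.model n) M) :
    WeakMTW.exp p.1 p.2 = (Φ 1 p).1 := by
  obtain ⟨x, v⟩ := p
  have hex : ∃ y, WeakMTW.ExpEndpoint x v y :=
    ⟨_, _, h.completeGeodesic x v, rfl⟩
  have hspec := Classical.choose_spec hex
  obtain ⟨γ, hγ, hγ1⟩ := hspec
  have : WeakMTW.exp x v = Classical.choose hex := by
    unfold WeakMTW.exp
    rw [dif_pos hex]
  show WeakMTW.exp x v = (Φ 1 (R213.mk x v)).1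
  rw [this, ← hγ1]
  exact h.eq_flow_of_completeGeodesic hγ 1

theorem toGeoData (h : GeoFull Φ r₀) : GeoData Φ r₀ :=
  { h.toGeoCore with exp_eq := h.exp_eq }

end GeoFull

end

end Claimed.Agent.R213.GS
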