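import Claimed.Agent.R213.GeoSoft.Basic

/-!
# Row 213 (S0438): no corner, non-crossing, uniqueness of minimising velocities, Hopf-Rinow

Consequences of `GeoData` (see `GeoSoft/Basic.lean`).
-/

set_option autoImplicit false
set_option linter.unusedSectionVars false
open Claims Claims.C0370 Claims.C0370.WeakMTWGlobalSupport
open scoped Manifold ContDiff Topology
open Set Filter Manifold Bundle

namespace Claimed.Agent.R213.GS

noncomputable section

variable {n : ℕ} {M : Type*} [MetricSpace M] [ChartedSpace (WeakMTW.Model n) M]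
  [IsManifold (WeakMTW.model n) ∞ M]
  [RiemannianBundle (fun x : M => TangentSpace (WeakMTW.model n) x)]

variable {Φ : ℝ → TangentBundle (WeakMTW.model n) M → TangentBundle (WeakMTW.model n) M} {r₀ : ℝ}

namespace GeoCore

/-- **Global no-corner**: if the flow line of `p` on `[0,1]` followed by the flow line of `q` on
`[0,1]` is minimising, then the velocities at the junction are positively proportional. -/
theorem nocorner_global (h : GeoCore Φ r₀) (p q : TangentBundle (WeakMTW.model n) M)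
    (hpq : (Φ 1 p).1 = q.1) (hd : dist p.1 (Φ 1 q).1 = ‖p.2‖ + ‖q.2‖) :
    sc ‖q.2‖ (Φ 1 p) = sc ‖p.2‖ q := by
  -- a small parameter
  obtain ⟨δ, hδ0, hδ1, hδp, hδq⟩ : ∃ δ : ℝ, 0 < δ ∧ δ ≤ 1 ∧ δ * ‖p.2‖ < r₀ ∧ δ * ‖q.2‖ < r₀ := by
    refine ⟨min 1 (r₀ / (‖p.2‖ + ‖q.2‖ + 1)), ?_, min_le_left _ _, ?_, ?_⟩
    · have := h.r₀_pos
      positivity
    · have h1 : min 1 (r₀ / (‖p.2‖ + ‖q.2‖ + 1)) ≤ r₀ / (‖p.2‖ + ‖q.2‖ + 1) := min_le_right _ _
      have h2 : r₀ / (‖p.2‖ + ‖q.2‖ + 1) * ‖p.2‖ < r₀ := by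
        rw [div_mul_eq_mul_div, div_lt_iff₀ (by positivity)]
        have := h.r₀_pos
        nlinarith [norm_nonneg p.2, norm_nonneg q.2]
      exact lt_of_le_of_lt (mul_le_mul_of_nonneg_right h1 (norm_nonneg _)) h2
    · have h1 : min 1 (r₀ / (‖p.2‖ + ‖q.2‖ + 1)) ≤ r₀ / (‖p.2‖ + ‖q.2‖ + 1) := min_le_right _ _
      have h2 : r₀ / (‖p.2‖ + ‖q.2‖ + 1) * ‖q.2‖ < r₀ := by
        rw [div_mul_eq_mul_div, div_lt_iff₀ (by positivity)]
        have := h.r₀_pos
        nlinarith [norm_nonneg p.2, norm_nonneg q.2]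
      exact lt_of_le_of_lt (mul_le_mul_of_nonneg_right h1 (norm_nonneg _)) h2
  have hδa : |δ| = δ := abs_of_pos hδ0
  -- the two points close to the junction
  have ea : (Φ (-1) (sc δ (Φ 1 p))).1 = (Φ (1 - δ) p).1 := by
    rw [h.flow_sc_fst, ← h.add]
    congr 2
    ring
  have eb : (Φ 1 (sc δ q)).1 = (Φ δ q).1 := h.flow_one_sc_fst δ q
  have h1 := h.dist_flow_le p 0 (1 - δ)
  have h2 := h.dist_flow_le q δ 1
  have h3 := h.dist_flow_le p (1 - δ) 1
  have h4 := h.dist_flow_le q 0 δ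
  rw [h.zero, sub_zero, abs_of_nonneg (by linarith)] at h1
  rw [abs_of_nonneg (by linarith)] at h2
  rw [show (1 : ℝ) - (1 - δ) = δ by ring, hδa, hpq] at h3
  rw [h.zero, sub_zero, hδa] at h4
  have h5 := dist_triangle4 p.1 (Φ (1 - δ) p).1 (Φ δ q).1 (Φ 1 q).1
  have h6 := dist_triangle (Φ (1 - δ) p).1 q.1 (Φ δ q).1
  have hab : dist (Φ (1 - δ) p).1 (Φ δ q).1 = δ * ‖p.2‖ + δ * ‖q.2‖ := by
    apply le_antisymm
    · linarith
    · nlinarith
  have key := h.nocorner (sc δ (Φ 1 p)) (sc δ q) hpq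
    (by rw [norm_sc, h.norm, hδa]; exact hδp) (by rw [norm_sc, hδa]; exact hδq)
    (by rw [ea, eb, norm_sc, norm_sc, h.norm, hδa]; exact hab)
  rw [norm_sc, norm_sc, h.norm, hδa, sc_sc, sc_sc] at key
  have e1 : δ * ‖q.2‖ * δ = δ ^ 2 * ‖q.2‖ := by ring
  have e2 : δ * ‖p.2‖ * δ = δ ^ 2 * ‖p.2‖ := by ring
  rw [e1, e2, ← sc_sc, ← sc_sc (δ ^ 2)] at key
  exact sc_cancel (pow_ne_zero 2 hδ0.ne') key

end GeoCore

namespace GeoData

/-- field `nocross` (the hypotheses `v₁ ∈ Ibar x₁`, `v₂ ∈ Ibar x₂` are not needed). -/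
theorem nocross (h : GeoData Φ r₀) (x₁ x₂ : M) (v₁ : TangentSpace (WeakMTW.model n) x₁)
    (v₂ : TangentSpace (WeakMTW.model n) x₂) (r : ℝ) (hr0 : 0 < r) (hr1 : r < 1)
    (hn : ‖v₁‖ = ‖v₂‖) (he : WeakMTW.exp x₁ (r • v₁) = WeakMTW.exp x₂ (r • v₂))
    (hd : dist x₁ (WeakMTW.exp x₂ v₂) = ‖v₁‖) : R213.mk x₁ v₁ = R213.mk x₂ v₂ := by
  rw [h.exp_smul, h.exp_smul] at he
  rw [h.exp_eq'] at hd
  rcases eq_or_lt_of_le (norm_nonneg v₁) with h0 | hpos
  · have hv1 : v₁ = 0 := norm_eq_zero.1 h0.symm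
    have hv2 : v₂ = 0 := norm_eq_zero.1 (hn ▸ h0.symm)
    subst hv1 hv2
    have e1 : ∀ (x : M) (t : ℝ),
        (Φ t (R213.mk x (0 : TangentSpace (WeakMTW.model n) x))).1 = x := by
      intro x t
      have := h.exp_smul x (0 : TangentSpace (WeakMTW.model n) x) t
      rw [smul_zero, h.exp_zero] at this
      exact this.symm
    rw [e1, e1] at he
    exact mk_zero_eq he
  · set p₁ := R213.mk x₁ v₁ with hp₁
    set p₂ := R213.mk x₂ v₂ with hp₂
    have hr' : 0 < 1 - r := by linarith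
    have n1 : ‖(sc r p₁).2‖ = r * ‖v₁‖ := by rw [norm_sc, abs_of_pos hr0]
    have n2 : ‖(sc (1 - r) (Φ r p₂)).2‖ = (1 - r) * ‖v₁‖ := by
      rw [norm_sc, abs_of_pos hr', h.norm, hn]
    have key := h.nocorner_global (sc r p₁) (sc (1 - r) (Φ r p₂))
      (by rw [h.flow_one_sc_fst, sc_fst]; exact he)
      (by
        rw [h.flow_one_sc_fst, ← h.add, sub_add_cancel, n1, n2, sc_fst]
        have : dist p₁.1 (Φ 1 p₂).1 = ‖v₁‖ := hd
        rw [this]; ring)
    rw [n1, n2, h.hom, mul_one, sc_sc, sc_sc] at key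
    have e : (1 - r) * ‖v₁‖ * r = r * ‖v₁‖ * (1 - r) := by ring
    rw [e] at key
    exact h.flow_inj (sc_cancel (by positivity) key)

/-- `a • v ∈ Ibar x`, `a ≥ 1` implies `v ∈ Ibar x`. -/
theorem mem_Ibar_of_smul (h : GeoData Φ r₀) {x : M} {v : TangentSpace (WeakMTW.model n) x} {a : ℝ}
    (ha : 1 ≤ a) (hd : dist x (WeakMTW.exp x (a • v)) = a * ‖v‖) : v ∈ Ibar x := by
  rw [h.exp_smul] at hd
  have := h.dist_flow_of_min (R213.mk x v) (T := a) hd (r := 0) (t := 1) le_rfl zero_le_one ha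
  rw [h.zero, sub_zero, one_mul, ← h.exp_eq'] at this
  exact this

theorem mem_Ibar_of_mem (h : GeoData Φ r₀) {x : M} {v : TangentSpace (WeakMTW.model n) x}
    (hv : v ∈ WeakMTW.injectivityDomain x) : v ∈ Ibar x := by
  obtain ⟨a, ha, hd⟩ := hv
  exact h.mem_Ibar_of_smul ha.le hd

/-- **Uniqueness of the minimising velocity** inside the injectivity domain. -/
theorem eq_of_mem_Vmin (h : GeoData Φ r₀) {x : M} {v w : TangentSpace (WeakMTW.model n) x}
    (hv : v ∈ WeakMTW.injectivityDomain x) (hw : w ∈ Vmin x (WeakMTW.exp x v)) : w = v := by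
  have hvI : dist x (WeakMTW.exp x v) = ‖v‖ := h.mem_Ibar_of_mem hv
  obtain ⟨a, ha, hd⟩ := hv
  obtain ⟨hw1, hw2⟩ := hw
  rw [hvI] at hw2
  rcases eq_or_lt_of_le (norm_nonneg v) with h0 | hpos
  · have hv0 : v = 0 := norm_eq_zero.1 h0.symm
    have hw0 : w = 0 := norm_eq_zero.1 (hw2.trans h0.symm)
    rw [hv0, hw0]
  · have ha' : 0 < a - 1 := by linarith
    rw [h.exp_smul] at hd
    rw [h.exp_eq', h.exp_eq'] at hw1
    have n2 : ‖(sc (a - 1) (Φ 1 (R213.mk x v))).2‖ = (a - 1) * ‖v‖ := by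
      rw [norm_sc, abs_of_pos ha', h.norm]
    have key := h.nocorner_global (R213.mk x w) (sc (a - 1) (Φ 1 (R213.mk x v)))
      (by rw [sc_fst]; exact hw1)
      (by
        rw [h.flow_one_sc_fst, ← h.add, sub_add_cancel, n2]
        have e1 : dist (R213.mk x w).1 (Φ a (R213.mk x v)).1 = a * ‖v‖ := hd
        have e2 : ‖(R213.mk x w).2‖ = ‖v‖ := hw2
        rw [e1, e2]; ring)
    have e2 : ‖(R213.mk x w).2‖ = ‖v‖ := hw2
    rw [n2, e2, sc_sc, mul_comm ‖v‖] at key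
    exact mk_eq_of_eq (h.flow_inj (sc_cancel (by positivity) key))

/-- field `hopf_rinow`, from the metric Hopf-Rinow theorem (existence of metric geodesics). -/
theorem hopf_rinow (h : GeoData Φ r₀)
    (hHR : ∀ x y : M, ∃ γ : ℝ → M, γ 0 = x ∧ γ 1 = y ∧
      ∀ s ∈ Icc (0 : ℝ) 1, ∀ t ∈ Icc (0 : ℝ) 1, dist (γ s) (γ t) = |s - t| * dist x y)
    (x y : M) : (Vmin (n := n) x y).Nonempty := by
  obtain ⟨γ, hγ0, hγ1, hγ⟩ := hHR x y
  set d := dist x y with hd
  obtain ⟨N, hN⟩ := exists_nat_gt (d / r₀)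
  have hN0 : (0 : ℝ) < N := lt_of_le_of_lt (by have := h.r₀_pos; positivity) hN
  have hNpos : 0 < N := by exact_mod_cast hN0
  have hdN : d / N < r₀ := by
    rw [div_lt_iff₀ hN0]
    rw [div_lt_iff₀ h.r₀_pos] at hN
    linarith
  have hmem : ∀ i : ℕ, i ≤ N → (i : ℝ) / N ∈ Icc (0 : ℝ) 1 := by
    intro i hi
    refine ⟨by positivity, ?_⟩
    rw [div_le_one hN0]
    exact_mod_cast hi
  have hdist : ∀ i j : ℕ, i ≤ j → j ≤ N →
      dist (γ ((i : ℝ) / N)) (γ ((j : ℝ) / N)) = ((j : ℝ) - i) * (d / N) := by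
    intro i j hij hj
    rw [hγ _ (hmem i (hij.trans hj)) _ (hmem j hj), abs_sub_comm, ← sub_div,
      abs_of_nonneg (div_nonneg (sub_nonneg.2 (by exact_mod_cast hij)) hN0.le)]
    ring
  -- the short legs
  have hleg : ∀ i : ℕ, ∃ P : TangentBundle (WeakMTW.model n) M, i < N →
      P.1 = γ ((i : ℝ) / N) ∧ ‖P.2‖ = d / N ∧ (Φ 1 P).1 = γ (((i + 1 : ℕ) : ℝ) / N) := by
    intro i
    by_cases hi : i < N
    · have h1 := hdist i (i + 1) (Nat.le_succ i) hi
      have h1' : dist (γ ((i : ℝ) / N)) (γ (((i + 1 : ℕ) : ℝ) / N)) = d / N := by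
        rw [h1]; push_cast; ring
      obtain ⟨w, hw1, hw2⟩ := h.short_surj _ _ (h1'.trans_lt hdN)
      exact ⟨R213.mk _ w, fun _ => ⟨rfl, hw1.trans h1', hw2⟩⟩
    · exact ⟨R213.mk x 0, fun hi' => absurd hi' hi⟩
  choose P hP using hleg
  rcases eq_or_lt_of_le (dist_nonneg (x := x) (y := y)) with h0 | hpos
  · -- `x = y`
    have hxy : x = y := dist_eq_zero.1 h0.symm
    refine ⟨0, ?_, ?_⟩
    · rw [h.exp_zero]; exact hxy
    · rw [norm_zero]; exact h0
  have hdpos : 0 < d / N := div_pos hpos hN0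
  -- consecutive legs fit together
  have hfit : ∀ i : ℕ, i + 1 < N → Φ 1 (P i) = P (i + 1) := by
    intro i hi
    obtain ⟨a1, a2, a3⟩ := hP i (by omega)
    obtain ⟨b1, b2, b3⟩ := hP (i + 1) hi
    have key := h.nocorner (Φ 1 (P i)) (P (i + 1)) (by rw [a3, b1])
      (by rw [h.norm, a2]; exact hdN) (by rw [b2]; exact hdN)
      (by
        rw [h.neg_flow, a1, b3, h.norm, a2, b2, hdist i (i + 1 + 1) (by omega) hi]
        push_cast; ring)
    rw [h.norm, a2, b2] at key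
    exact sc_cancel hdpos.ne' key
  have hiter : ∀ i : ℕ, i < N → Φ i (P 0) = P i := by
    intro i
    induction i with
    | zero => intro _; rw [Nat.cast_zero, h.zero]
    | succ k ih =>
      intro hk
      have e : ((k + 1 : ℕ) : ℝ) = 1 + k := by push_cast; ring
      rw [e, h.add, ih (by omega), hfit k hk]
  obtain ⟨c1, c2, c3⟩ := hP 0 hNpos
  have hend : (Φ N (P 0)).1 = y := by
    obtain ⟨k, rfl⟩ : ∃ k, N = k + 1 := ⟨N - 1, by omega⟩
    have e : ((k + 1 : ℕ) : ℝ) = 1 + k := by push_cast; ring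
    obtain ⟨-, -, b3⟩ := hP k (by omega)
    rw [e, h.add, hiter k (by omega), b3, div_self hN0.ne', hγ1]
  have hx : (P 0).1 = x := by rw [c1]; simp [hγ0]
  -- transport to the fibre over `x`
  rcases hP0 : P 0 with ⟨z, w⟩
  have hx' : z = x := by rw [hP0] at hx; exact hx
  subst hx'
  rw [hP0] at hend c2
  refine ⟨(N : ℝ) • w, ?_, ?_⟩
  · rw [h.exp_smul]; exact hend
  · have c2' : ‖w‖ = d / N := c2
    rw [norm_smul, Real.norm_eq_abs, abs_of_pos hN0, c2']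
    field_simp
    exact hd

end GeoData

end

end Claimed.Agent.R213.GS
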